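import Vale.Agent.P262.Gauss.Tails

/-!
# P230: elementary estimates for the standard Gaussian measure
-/

open MeasureTheory ProbabilityTheory Set
open scoped ENNReal NNReal RealInnerProductSpace

namespace Vale.Agent.P230.Gauss

lemma line_real (S : Set ℝ) :
    (gaussianReal 0 1).real S = ∫ x in S, gaussianPDFReal 0 1 x := by
  rw [measureReal_def, gaussianReal_apply_eq_integral 0 one_ne_zero,
    ENNReal.toReal_ofReal]
  exact integral_nonneg fun x => gaussianPDFReal_nonneg 0 1 x

lemma pdf_std (x : ℝ) :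
    gaussianPDFReal 0 1 x = (Real.sqrt (2 * Real.pi))⁻¹ * Real.exp (-x ^ 2 / 2) := by
  simp [gaussianPDFReal]

/-- Upper tail bound. -/
lemma line_tail_le {b : ℝ} (hb : 0 < b) :
    (gaussianReal 0 1).real (Ioi b) ≤
      (Real.sqrt (2 * Real.pi))⁻¹ * Real.exp (-b ^ 2 / 2) / b := by
  have hint : IntegrableOn
      (fun x => (Real.sqrt (2 * Real.pi))⁻¹ * Real.exp (b ^ 2 / 2) * Real.exp (-b * x)) (Ioi b) :=
    (integrableOn_exp_mul_Ioi (by linarith) b).const_mul _
  rw [line_real]
  calc ∫ x in Ioi b, gaussianPDFReal 0 1 x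
      ≤ ∫ x in Ioi b, (Real.sqrt (2 * Real.pi))⁻¹ * Real.exp (b ^ 2 / 2) * Real.exp (-b * x) := by
        refine setIntegral_mono_on (integrable_gaussianPDFReal 0 1).integrableOn hint
          measurableSet_Ioi fun x _ => ?_
        rw [pdf_std, mul_assoc, ← Real.exp_add]
        refine mul_le_mul_of_nonneg_left (Real.exp_le_exp.2 ?_) (by positivity)
        nlinarith [sq_nonneg (x - b)]
    _ = _ := by
        rw [integral_const_mul, integral_exp_mul_Ioi (by linarith) b]
        have : Real.exp (-b ^ 2 / 2) = Real.exp (b ^ 2 / 2) * Real.exp (-b * b) := by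
          rw [← Real.exp_add]; ring_nf
        rw [this]
        field_simp

/-- Lower tail bound. -/
lemma line_tail_ge {b : ℝ} (hb : 0 < b) :
    (Real.sqrt (2 * Real.pi))⁻¹ * Real.exp (-(b + 1 / b) ^ 2 / 2) / b ≤
      (gaussianReal 0 1).real (Ioi b) := by
  calc _ = ∫ x in Ioc b (b + 1 / b),
        (Real.sqrt (2 * Real.pi))⁻¹ * Real.exp (-(b + 1 / b) ^ 2 / 2) := by
        rw [setIntegral_const, Real.volume_real_Ioc_of_le (by simp [hb.le]), smul_eq_mul]
        ring
    _ ≤ ∫ x in Ioc b (b + 1 / b), gaussianPDFReal 0 1 x := by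
        refine setIntegral_mono_on (integrableOn_const (by simp) ) (integrable_gaussianPDFReal 0 1).integrableOn
          measurableSet_Ioc fun x hx => ?_
        rw [pdf_std]
        refine mul_le_mul_of_nonneg_left (Real.exp_le_exp.2 ?_) (by positivity)
        have h1 : x ^ 2 ≤ (b + 1 / b) ^ 2 := pow_le_pow_left₀ (hb.le.trans hx.1.le) hx.2 2
        linarith
    _ ≤ _ := by
        rw [← line_real]
        exact measureReal_mono Ioc_subset_Ioi_self

/-- An interval has at most the measure given by its length. -/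
lemma line_interval_le {c h : ℝ} (hh : 0 ≤ h) :
    (gaussianReal 0 1).real (Icc c (c + h)) ≤ h := by
  rw [line_real]
  calc ∫ x in Icc c (c + h), gaussianPDFReal 0 1 x
      ≤ ∫ x in Icc c (c + h), (1 : ℝ) := by
        refine setIntegral_mono_on (integrable_gaussianPDFReal 0 1).integrableOn
          (integrableOn_const (by simp)) measurableSet_Icc fun x _ => ?_
        rw [pdf_std]
        refine mul_le_one₀ ?_ (Real.exp_pos _).le (Real.exp_le_one_iff.2 (by linarith [sq_nonneg x]))
        refine inv_le_one_of_one_le₀ (Real.one_le_sqrt.2 ?_)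
        linarith [Real.pi_gt_three]
    _ = h := by rw [setIntegral_const, Real.volume_real_Icc_of_le (by linarith)]; simp

variable {E : Type*} [NormedAddCommGroup E] [InnerProductSpace ℝ E] [FiniteDimensional ℝ E]
  [MeasurableSpace E] [BorelSpace E]

/-- One-dimensional marginals. -/
lemma marginal {u : E} (hu : ‖u‖ = 1) {S : Set ℝ} (hS : MeasurableSet S) :
    (stdGaussian E).real {g | ⟪g, u⟫ ∈ S} = (gaussianReal 0 1).real S := by
  have hmap : (stdGaussian E).map (fun x => ⟪u, x⟫) = gaussianReal 0 1 := by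
    have h := IsGaussian.map_eq_gaussianReal (μ := stdGaussian E) (innerSL ℝ u)
    rw [integral_strongDual_stdGaussian, variance_dual_stdGaussian, innerSL_apply_norm, hu] at h
    simpa using h
  rw [← hmap, map_measureReal_apply (by fun_prop) hS]
  congr 1
  ext g
  simp [real_inner_comm]

/-- Two opposite shifts of the standard Gaussian measure of the line. -/
lemma line_shift_add (s : ℝ) (S : Set ℝ) :
    ENNReal.ofReal (2 * Real.exp (-s ^ 2 / 2)) * gaussianReal 0 1 S
      ≤ gaussianReal (-s) 1 S + gaussianReal s 1 S := by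
  simp only [gaussianReal_apply _ one_ne_zero]
  rw [← lintegral_add_left (measurable_gaussianPDF _ _),
    ← lintegral_const_mul _ (measurable_gaussianPDF _ _)]
  refine lintegral_mono fun x => ?_
  simp only [gaussianPDF]
  rw [← ENNReal.ofReal_mul (by positivity),
    ← ENNReal.ofReal_add (gaussianPDFReal_nonneg _ _ _) (gaussianPDFReal_nonneg _ _ _)]
  refine ENNReal.ofReal_le_ofReal ?_
  simp only [gaussianPDFReal, NNReal.coe_one, mul_one, sub_zero, sub_neg_eq_add]
  have h1 : Real.exp (-(x + s) ^ 2 / 2) =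
      Real.exp (-x ^ 2 / 2) * Real.exp (-s ^ 2 / 2) * Real.exp (-(s * x)) := by
    rw [← Real.exp_add, ← Real.exp_add]; ring_nf
  have h2 : Real.exp (-(x - s) ^ 2 / 2) =
      Real.exp (-x ^ 2 / 2) * Real.exp (-s ^ 2 / 2) * Real.exp (s * x) := by
    rw [← Real.exp_add, ← Real.exp_add]; ring_nf
  have h3 : 2 ≤ Real.exp (-(s * x)) + Real.exp (s * x) := by
    linarith [Real.add_one_le_exp (-(s * x)), Real.add_one_le_exp (s * x)]
  rw [h1, h2]
  calc 2 * Real.exp (-s ^ 2 / 2) * ((Real.sqrt (2 * Real.pi))⁻¹ * Real.exp (-x ^ 2 / 2))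
      = (Real.sqrt (2 * Real.pi))⁻¹ * Real.exp (-x ^ 2 / 2) * Real.exp (-s ^ 2 / 2) * 2 := by ring
    _ ≤ (Real.sqrt (2 * Real.pi))⁻¹ * Real.exp (-x ^ 2 / 2) * Real.exp (-s ^ 2 / 2) *
        (Real.exp (-(s * x)) + Real.exp (s * x)) :=
      mul_le_mul_of_nonneg_left h3 (by positivity)
    _ = _ := by ring

/-- A translate of a symmetric set. -/
theorem shift_symm (a : E) {S : Set E} (hS : MeasurableSet S) (hSs : ∀ x ∈ S, -x ∈ S) :
    Real.exp (-‖a‖ ^ 2 / 2) * (stdGaussian E).real S ≤
      (stdGaussian E).real {g | g - a ∈ S} := by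
  rcases eq_or_ne a 0 with rfl | ha
  · simp
  obtain ⟨m, L, hL, hLa⟩ := P262.Gauss.exists_coords ha
  set s := ‖a‖
  set ν := P262.Gauss.gpi m
  set B := L ⁻¹' S
  have hLm : Measurable L := L.continuous.measurable
  have hB : MeasurableSet B := hLm hS
  have hBs : Prod.map Neg.neg Neg.neg ⁻¹' B = B := by
    ext p
    have e : L (Prod.map Neg.neg Neg.neg p) = -L p := by
      rw [← map_neg]; rfl
    simp only [B, mem_preimage, e]
    exact ⟨fun h => by simpa using hSs _ h, hSs _⟩
  have hA : stdGaussian E {g | g - a ∈ S} = ((gaussianReal (-s) 1).prod ν) B := by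
    have hsub : MeasurableSet {g | g - a ∈ S} := (measurable_id.sub_const a) hS
    have hmap : (gaussianReal 0 1).map (fun x => x + -s) = gaussianReal (-s) 1 := by
      rw [gaussianReal_map_add_const, zero_add]
    rw [← hL, Measure.map_apply hLm hsub, ← hmap, ← ν.map_id,
      Measure.map_prod_map _ _ (measurable_add_const _) measurable_id,
      Measure.map_apply ((measurable_add_const _).prodMap measurable_id) hB, Measure.map_id]
    congr 1
    ext p
    have e : L (Prod.map (fun x => x + -s) id p) = L p - a := by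
      rw [← hLa, ← map_sub]
      congr 1
      simp [Prod.ext_iff, sub_eq_add_neg]
    simp only [B, mem_preimage, e, mem_ofPred_eq]
  have hneg : ((gaussianReal (-s) 1).prod ν) B = ((gaussianReal s 1).prod ν) B := by
    have h1 : (gaussianReal (-s) 1).map Neg.neg = gaussianReal s 1 := by
      simpa using gaussianReal_map_neg (μ := -s) (v := 1)
    have h2 : ν.map Neg.neg = ν := P262.Gauss.gpi_map_neg m
    conv_rhs => rw [← h1, ← h2, Measure.map_prod_map _ _ measurable_neg
      measurable_neg, Measure.map_apply (measurable_neg.prodMap measurable_neg) hB, hBs]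
  have hle : ENNReal.ofReal (2 * Real.exp (-s ^ 2 / 2)) * stdGaussian E S
      ≤ 2 * stdGaussian E {g | g - a ∈ S} := by
    have e : (2 : ℝ≥0∞) * ((gaussianReal (-s) 1).prod ν) B
        = ((gaussianReal (-s) 1).prod ν) B + ((gaussianReal s 1).prod ν) B := by
      rw [← hneg, two_mul]
    rw [hA, e, ← hL, Measure.map_apply hLm hS, Measure.prod_apply_symm hB, Measure.prod_apply_symm hB,
      Measure.prod_apply_symm hB, ← lintegral_const_mul _ (measurable_measure_prodMk_right hB),
      ← lintegral_add_left (measurable_measure_prodMk_right hB)]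
    exact lintegral_mono fun y => line_shift_add s _
  have := ENNReal.toReal_mono (by finiteness) hle
  rw [ENNReal.toReal_mul, ENNReal.toReal_mul, ENNReal.toReal_ofReal (by positivity)] at this
  simp only [ENNReal.toReal_ofNat] at this
  simp only [measureReal_def]
  linarith

/-- The norm is rarely large. -/
lemma norm_tail {r : ℝ} (hr : 0 ≤ r) :
    (stdGaussian E).real {g | r < ‖g‖} ≤
      Real.exp (-((r ^ 2 - 2 * Module.finrank ℝ E) / 4)) := by
  have h := P262.Gauss.quad_tail (E := E) LinearMap.id (fun x y => rfl)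
    (fun x => real_inner_self_nonneg) one_pos
    (fun x => by rw [LinearMap.id_apply, real_inner_self_eq_norm_sq, one_mul])
    ((r ^ 2 - 2 * Module.finrank ℝ E) / 4)
  rw [LinearMap.trace_id] at h
  have h2 := ENNReal.toReal_mono ENNReal.ofReal_ne_top h
  rw [ENNReal.toReal_ofReal (Real.exp_pos _).le] at h2
  refine (measureReal_mono ?_).trans h2
  intro g hg
  simp only [mem_ofPred_eq, LinearMap.id_apply, real_inner_self_eq_norm_sq] at hg ⊢
  nlinarith [pow_lt_pow_left₀ hg hr two_ne_zero]

/-- Finitely many slabs. -/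
lemma slabs {b : ℝ} (hb : 0 ≤ b) (Z : Finset E) (hZ : ∀ z ∈ Z, ‖z‖ ≤ 1) :
    (stdGaussian E).real {g | ∃ z ∈ Z, b < |⟪g, z⟫|} ≤
      Z.card * (2 * Real.exp (-b ^ 2 / 2)) := by
  have hsub : {g : E | ∃ z ∈ Z, b < |⟪g, z⟫|} ⊆ ⋃ z ∈ Z, {g | b * ‖z‖ < |⟪g, z⟫|} := by
    rintro g ⟨z, hz, hg⟩
    exact mem_biUnion hz (lt_of_le_of_lt (mul_le_of_le_one_right hb (hZ z hz)) hg)
  refine (measureReal_mono hsub (measure_ne_top _ _)).trans ((measureReal_biUnion_finset_le _ _).trans ?_)
  refine (Finset.sum_le_card_nsmul _ _ _ fun z _ => ?_).trans_eq (nsmul_eq_mul _ _)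
  have h := ENNReal.toReal_mono ENNReal.ofReal_ne_top (P262.Gauss.slab_tail z hb)
  rwa [ENNReal.toReal_ofReal (by positivity)] at h

end Vale.Agent.P230.Gauss
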